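import Vale.Agent.P122.H265.E7
import Vale.Agent.P122.H369.E5b

/-!
# P122 / H778 : the step (A) of the regular systems, `e6_of : E4 → E5 C₀ → E6 (C₀ + 7)` (helper778)

* `diag` : `V j ≤ V c + 3 D(c, j) + 1 / K` if the box of level `c` is thicker than the level `j`.
* `D_sub`, `D_mid` : the time deficits at neighbouring levels.
* `H_ge` : `H i ≤ H j + 4 (j - i) / K`.
-/

set_option autoImplicit false

namespace Vale.Agent.P122.H778

open Filter Topology Finset Vale.Agent.P127 Vale.Agent.P127.Stk Vale.Agent.P127.U Vale.Agent.P127.U.Sys Vale.Agent.P122.C2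
  Vale.Agent.P122.E Vale.Agent.P122.H518 Vale.Agent.P122.H265

variable {K : ℕ} {F : Flg K} {J θ H e : ℕ → ℝ} {W : ℕ → F.S.BX} {kk jj : ℕ → ℕ → ℕ}

/-- exponent of a minimum -/
theorem nu_min {S : Sys} {a b : ℕ → ℕ} (ha : ∃ c : ℝ, ∀ᶠ i in (uf : Filter ℕ), (a i : ℝ) ≤ c * S.L i)
    (hb : ∃ c : ℝ, ∀ᶠ i in (uf : Filter ℕ), (b i : ℝ) ≤ c * S.L i) :
    S.nu (fun i => min (a i) (b i)) = min (S.nu a) (S.nu b) := by
  unfold nu
  refine ulim_eq ?_
  have h1 := (Fi.ub_nu ha).tendsto.min (Fi.ub_nu hb).tendsto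
  refine h1.congr fun i => ?_
  rw [Nat.cast_min]
  exact min_div_div_right (Nat.cast_nonneg (α := ℝ) (S.L i)) (a i : ℝ) (b i : ℝ)

/-- the box of the level `c` contains the tube of the level `c` -/
theorem subW (R : RegA F J θ H e W kk jj) {c : ℕ} (hc : c ≤ K) :
    SubA (tubes (F.m c) (F.ln c)) (W c) := by
  refine ⟨1, ?_⟩
  filter_upwards [R.Wok c hc] with i hi ω hω
  obtain ⟨h1, h2, h3, h4, h5, h6⟩ := hi ω hω
  refine ⟨h1, h2, ?_, ?_, ?_, ?_⟩
  · rw [h3, h4]; exact h5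
  · show (W c i).k ω ≤ c * F.n i
    rw [h3]; exact h5.trans h6
  · show (W c i).j ω ≤ c * F.n i
    rw [h4]; exact h6
  · show |Real.sin _| * (1 / 2 : ℝ) ^ (F.m c i) ≤ 1 * (1 / 2 : ℝ) ^ (W c i).j ω
    have h7 : (1 / 2 : ℝ) ^ (F.m c i) ≤ (1 / 2 : ℝ) ^ (W c i).j ω := by
      refine pow_le_pow_of_le_one (by norm_num) (by norm_num) ?_
      rw [h4]; exact h6
    exact mul_le_mul (Real.abs_sin_le_one _) h7 (by positivity) zero_le_one

/-- thickness of the boxes -/
theorem bd_jj (hK : 1 ≤ K) (R : RegA F J θ H e W kk jj) {c : ℕ} (hc : c ≤ K) :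
    (∃ r : ℝ, ∀ᶠ i in (uf : Filter ℕ), (jj c i : ℝ) ≤ r * F.S.L i) ∧
      (∃ r : ℝ, ∀ᶠ i in (uf : Filter ℕ), (kk c i : ℝ) ≤ r * F.S.L i) ∧
      (∀ᶠ i in (uf : Filter ℕ), kk c i ≤ jj c i) := by
  obtain ⟨r, hr⟩ := bd_m F hK c
  have h0 : ∀ᶠ i in (uf : Filter ℕ), kk c i ≤ jj c i ∧ jj c i ≤ c * F.n i := by
    filter_upwards [R.Wok c hc] with i hi
    obtain ⟨ω, hω⟩ := law_pos (F.S.P i)
    exact (hi ω hω).2.2.2.2
  refine ⟨⟨r, ?_⟩, ⟨r, ?_⟩, h0.mono fun i hi => hi.1⟩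
  · filter_upwards [hr, h0] with i h1 h2
    have h3 : (jj c i : ℝ) ≤ (F.m c i : ℝ) := by exact_mod_cast h2.2
    linarith
  · filter_upwards [hr, h0] with i h1 h2
    have h3 : (kk c i : ℝ) ≤ (F.m c i : ℝ) := by exact_mod_cast h2.1.trans h2.2
    linarith

/-- size of the fat box -/
theorem av_fatW (hK : 1 ≤ K) (R : RegA F J θ H e W kk jj) {c j : ℕ} (hc : c ≤ K) (hj2 : j ≤ 2 * c)
    (hα : (j : ℝ) / K ≤ nα F jj c) :
    F.S.av (BX.sz (fat (F.m (2 * c - j)) (W c))) = F.S.nu (kk c) + F.S.nu (jj c) := by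
  obtain ⟨b1, b2, b3⟩ := bd_jj hK R hc
  have bm := bd_m F hK (2 * c - j)
  have e1 : F.S.av (BX.sz (fat (F.m (2 * c - j)) (W c))) =
      F.S.nu (fun i => min (kk c i) (F.m (2 * c - j) i)) +
        F.S.nu (fun i => min (jj c i) (F.m (2 * c - j) i)) := by
    have u1 : ∃ r : ℝ, ∀ᶠ i in (uf : Filter ℕ),
        ((min (kk c i) (F.m (2 * c - j) i) : ℕ) : ℝ) ≤ r * F.S.L i := by
      obtain ⟨r, hr⟩ := bm
      exact ⟨r, hr.mono fun i hi => (Nat.cast_le.2 (min_le_right _ _)).trans hi⟩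
    have u2 : ∃ r : ℝ, ∀ᶠ i in (uf : Filter ℕ),
        ((min (jj c i) (F.m (2 * c - j) i) : ℕ) : ℝ) ≤ r * F.S.L i := by
      obtain ⟨r, hr⟩ := bm
      exact ⟨r, hr.mono fun i hi => (Nat.cast_le.2 (min_le_right _ _)).trans hi⟩
    unfold nu
    rw [← ulim_add (Fi.ub_nu u1) (Fi.ub_nu u2)]
    refine ulim_congr ?_
    filter_upwards [R.Wok c hc] with i hi
    have : (F.S.P i).ex (BX.sz (fat (F.m (2 * c - j)) (W c)) i) =
        (F.S.P i).ex (fun _ => ((min (kk c i) (F.m (2 * c - j) i) : ℕ) : ℝ) +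
          ((min (jj c i) (F.m (2 * c - j) i) : ℕ) : ℝ)) := by
      refine (F.S.P i).ex_congr fun ω hω => ?_
      obtain ⟨-, -, h3, h4, -, -⟩ := hi ω hω
      show ((min ((W c i).k ω) (F.m (2 * c - j) i) : ℕ) : ℝ) +
        ((min ((W c i).j ω) (F.m (2 * c - j) i) : ℕ) : ℝ) = _
      rw [h3, h4]
    rw [this, Law.ex_const]
    ring
  have hν : F.S.nu (jj c) ≤ F.S.nu (F.m (2 * c - j)) := by
    rw [nu_m F hK]
    unfold nα at hα
    have : ((2 * c - j : ℕ) : ℝ) = 2 * (c : ℝ) - j := by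
      rw [Nat.cast_sub hj2]; push_cast; ring
    rw [this]
    have h2 : (2 * (c : ℝ) - j) / K = 2 * c / K - j / K := by ring
    rw [h2]
    linarith
  have hν2 : F.S.nu (kk c) ≤ F.S.nu (jj c) := by
    unfold nu
    refine ulim_le (Fi.ub_nu b2) (Fi.ub_nu b1) ?_
    filter_upwards [b3] with i hi
    exact div_le_div_of_nonneg_right (by exact_mod_cast hi) (Nat.cast_nonneg _)
  rw [e1, nu_min b2 bm, nu_min b1 bm, min_eq_left hν, min_eq_left (hν2.trans hν)]

/-- **(A), diagonal form** -/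
theorem diag (h4 : E4) (hK : 1 ≤ K) (R : RegA F J θ H e W kk jj) {c j : ℕ} (h0 : 1 ≤ c) (hcj : c ≤ j)
    (hj2 : j ≤ 2 * c) (hjK : j ≤ K) (hα : (j : ℝ) / K ≤ nα F jj c) :
    nV K H e j ≤ nV K H e c + 3 * F.D c j + 1 / K := by
  have hcK := hcj.trans hjK
  have ct := cts hK R
  have sW := subW R hcK
  have bW : BxA (W c) := bxA_of_sub (Fi.tubes_bxA (bd_m F hK c) (lnA_ln F c hcK)) sW
  have sF : SubA (tubes (F.m (2 * c - j)) (F.ln c)) (fat (F.m (2 * c - j)) (W c)) := fat_sub sW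
  have bF : BxA (fat (F.m (2 * c - j)) (W c)) :=
    bxA_of_sub (Fi.tubes_bxA (bd_m F hK (2 * c - j)) (lnA_ln F c hcK)) sF
  have a1 := h4 F c j hK h0 hcj hj2 hjK F.S (Ext.refl F.S) (fat (F.m (2 * c - j)) (W c)) sF
  have a2 : F.exc j ≤ e j := H655.e3 F j (e j) hK hjK (R.e0 j hjK) (R.exU j hjK)
  rw [av_fatW hK R hcK hj2 hα] at a1
  have tsig : Tame (F.sig c j) := (ct.tre.tN c hcK).mono (Eventually.of_forall fun k ω ω' _ _ e => by
    show F.sig c j k ω = F.sig c j k ω'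
    unfold Flg.sig
    rw [e])
  have tball : Tame (F.ball c) := (ct.tre.tN c hcK).mono (Eventually.of_forall fun k ω ω' _ _ e => by
    show F.ball c k ω = F.ball c k ω'
    unfold Flg.ball
    rw [e])
  have a6 : F.S.hc (F.N j) (one (S := F.S)) = H j := ct.hN j hjK
  -- the information of the fat box
  have b1 := hc_le_add tsig (bF.tame.pr tball) (one (S := F.S))
  have b2 : F.S.hc (F.sig c j) (Sys.pr (Sys.pr (BX.lab (fat (F.m (2 * c - j)) (W c))) (F.ball c))
      (one (S := F.S))) ≤ F.S.hc (F.sig c j) (Sys.pr (BX.lab (fat (F.m (2 * c - j)) (W c)))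
        (F.ball c)) := hc_mono_right tsig (ffst _ _)
  have b3 := hc_le_add (bF.tame.pr tball) (bW.tame.pr tball) (one (S := F.S))
  have b4 : F.S.hc (Sys.pr (BX.lab (fat (F.m (2 * c - j)) (W c))) (F.ball c))
      (Sys.pr (Sys.pr (BX.lab (W c)) (F.ball c)) (one (S := F.S))) ≤ 0 := by
    refine (hc_mono_right (bF.tame.pr tball) (ffst _ _)).trans (le_of_eq ?_)
    exact Fi.hc_zero_pair bF.tame tball (fat_lab bW _)
      (hc_fn (Eventually.of_forall fun _ _ _ _ _ e => congrArg Prod.snd e))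
  have b5 := cnt_hc_le (R.W1 c hcK)
  have b6 : F.S.hc ((Ext.refl F.S).pull (F.sig c j))
      (Sys.pr (BX.lab (fat (F.m (2 * c - j)) (W c))) ((Ext.refl F.S).pull (F.ball c))) =
      F.S.hc (F.sig c j) (Sys.pr (BX.lab (fat (F.m (2 * c - j)) (W c))) (F.ball c)) := rfl
  rw [a6, b6] at a1
  show H j + 4 * (j : ℝ) / K - e j ≤ H c + 4 * (c : ℝ) / K - e c + 3 * F.D c j + 1 / K
  have e1 : 6 * (c : ℝ) / K - 2 * (c : ℝ) / K = 4 * (c : ℝ) / K := by ring
  linarith

/-- the time deficit is subadditive -/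
theorem D_sub (hK : 1 ≤ K) (R : RegA F J θ H e W kk jj) {c i j : ℕ} (hci : c ≤ i) (hij : i ≤ j)
    (hj : j ≤ K) : F.D c j ≤ F.D c i + F.D i j := by
  have ct := cts hK R
  have h1 := ct.En_sub hci (hij.trans hj)
  have h2 := ct.En_sub hij hj
  have h3 := ct.En_sub (hci.trans hij) hj
  have h4 := ct.Cn_super hci hij hj
  have h5 := Finset.sum_Ico_consecutive θ hci hij
  show Cts.Dn F.S K F.N F.T c j ≤ Cts.Dn F.S K F.N F.T c i + Cts.Dn F.S K F.N F.T i j
  linarith

/-- the time deficit is at most the increment of `E` -/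
theorem D_le_E (hK : 1 ≤ K) (R : RegA F J θ H e W kk jj) {i j : ℕ} (hij : i ≤ j) (hj : j ≤ K) :
    F.D i j ≤ nE K J θ H j - nE K J θ H i := by
  have ct := cts hK R
  have h1 := ct.En_sub hij hj
  have h2 := ct.Cn_ge hij hj
  show Cts.Dn F.S K F.N F.T i j ≤ Cts.En K H J θ j - Cts.En K H J θ i
  linarith

/-- the time deficit decreases in the first level -/
theorem D_mid (hK : 1 ≤ K) (R : RegA F J θ H e W kk jj) {i c j : ℕ} (hic : i ≤ c) (hcj : c ≤ j)
    (hj : j ≤ K) : F.D c j ≤ F.D i j := by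
  have ct := cts hK R
  have tc := ct.tre.tT (c := c) (by omega)
  have ti := ct.tre.tT (c := i) (by omega)
  have h1 := hc_le_add ti tc (F.N j)
  have h2 : F.S.hc (F.T i) (Sys.pr (F.T c) (F.N j)) ≤ F.S.hc (F.T i) (F.T c) :=
    hc_mono_right ti (ffst _ _)
  have h3 := ct.hT_le hic (hcj.trans hj)
  unfold Flg.D
  have e1 : 2 * ((j : ℝ) - i) / K = 2 * ((j : ℝ) - c) / K + 2 * ((c : ℝ) - i) / K := by ring
  rw [e1]
  linarith

theorem D_le (hK : 1 ≤ K) (R : RegA F J θ H e W kk jj) {c i : ℕ} (hci : c ≤ i) (hi : i ≤ K) :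
    F.D c i ≤ 2 * ((i : ℝ) - c) / K := (cts hK R).Dn_le hci hi

/-- number of tubes in a piece -/
theorem cnt_sg (hK : 1 ≤ K) (F : Flg K) (c : ℕ) : Cnt F.S (F.N c) (F.sg c) (2 / K) := by
  classical
  intro ε hε
  refine Eventually.of_forall fun i ω hω => ?_
  have hKr : (0 : ℝ) < K := by exact_mod_cast hK
  set n := F.n i with hn
  set g := F.sg c i ω with hg
  refine ⟨(Fintype.piFinset fun k => Finset.Ico (2 ^ n * g.o k) (2 ^ n * (g.o k + 1))).image
    fun o => (⟨g.τ, o, g.T⟩ : Nd), ?_, ?_⟩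
  · have h1 : ((Fintype.piFinset fun k => Finset.Ico (2 ^ n * g.o k) (2 ^ n * (g.o k + 1))).image
        fun o => (⟨g.τ, o, g.T⟩ : Nd)).card ≤ 2 ^ (2 * n) := by
      refine Finset.card_image_le.trans (le_of_eq ?_)
      rw [Fintype.card_piFinset, Fin.prod_univ_two, Int.card_Ico, Int.card_Ico]
      have h2 : ∀ x : ℤ, (2 ^ n * (x + 1) - 2 ^ n * x).toNat = 2 ^ n := by
        intro x
        have : (2 ^ n * (x + 1) - 2 ^ n * x : ℤ) = ((2 ^ n : ℕ) : ℤ) := by push_cast; ring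
        rw [this, Int.toNat_natCast]
      rw [h2, h2, ← pow_add]
      congr 1
      ring
    have h3 : (2 : ℝ) ^ (2 * n) ≤ (2 : ℝ) ^ ((2 / (K : ℝ) + ε) * F.S.L i) := by
      rw [← Real.rpow_natCast 2 (2 * n)]
      refine Real.rpow_le_rpow_of_exponent_le (by norm_num) ?_
      rw [F.L_eq i]
      push_cast
      have h4 : (2 / (K : ℝ) + ε) * (K * n) = 2 * n + ε * (K * n) := by
        field_simp
      rw [h4]
      have : 0 ≤ ε * ((K : ℝ) * n) := by positivity
      linarith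
    refine le_trans ?_ h3
    exact_mod_cast h1
  · intro ω' hω' e
    rw [Finset.mem_image]
    have e' : F.sg c i ω' = g := e
    have h1 : (F.N c i ω').τ = g.τ := by rw [← e']; rfl
    have h2 : (F.N c i ω').T = g.T := by rw [← e']; rfl
    have h3 : ∀ k, (F.N c i ω').o k / 2 ^ n = g.o k := by intro k; rw [← e']; rfl
    refine ⟨(F.N c i ω').o, ?_, ?_⟩
    · rw [Fintype.mem_piFinset]
      intro k
      rw [Finset.mem_Ico, ← h3 k]
      have h4 : (0 : ℤ) < 2 ^ n := by positivity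
      constructor
      · exact Int.mul_ediv_self_le h4.ne'
      · have := Int.lt_mul_ediv_self_add (x := (F.N c i ω').o k) h4
        calc (F.N c i ω').o k < 2 ^ n * ((F.N c i ω').o k / 2 ^ n) + 2 ^ n := this
          _ = _ := by ring
    · rw [← h1, ← h2]

/-- one step: `H c ≤ H (c + 1) + 4 / K` -/
theorem H_step (hK : 1 ≤ K) (R : RegA F J θ H e W kk jj) {c : ℕ} (hc : c < K) :
    H c ≤ H (c + 1) + 4 / K := by
  have ct := cts hK R
  have h1 := ct.hc_NN (Nat.le_succ c) hc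
  have h2 := ct.hc_NN_cut (Nat.le_succ c) hc
  have h3 : F.S.hc (F.T c) (F.N (c + 1)) ≤ F.S.hc (F.T c) (F.T (c + 1)) :=
    hc_mono_right (ct.tre.tT hc.le) (ct.tre.TN (c + 1) hc)
  have h4 := ct.hT_le (Nat.le_succ c) hc
  have h5 : F.S.hc (F.N c) (Sys.pr (F.T c) (F.N (c + 1))) ≤ F.S.hc (F.N c) (F.sg c) :=
    hc_mono_right (ct.tre.tN c hc.le) (ct.tre.gT c hc)
  have h6 := cnt_hc_le (cnt_sg hK F c)
  have h7 : 0 ≤ J c := R.J0 c hc
  have e1 : 2 * (((c.succ : ℕ) : ℝ) - c) / K = 2 / K := by push_cast; ring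
  have e2 : (4 : ℝ) / K = 2 / K + 2 / K := by ring
  rw [e1] at h4
  rw [e2]
  have e3 : c.succ = c + 1 := rfl
  rw [e3] at h1 h2 h4
  rw [Finset.sum_range_succ] at h1
  linarith

/-- `H i ≤ H j + 4 (j - i) / K` -/
theorem H_ge (hK : 1 ≤ K) (R : RegA F J θ H e W kk jj) {i j : ℕ} (hij : i ≤ j) (hj : j ≤ K) :
    H i ≤ H j + 4 * ((j : ℝ) - i) / K := by
  induction j, hij using Nat.le_induction with
  | base => simp
  | succ j hij ih =>
    have g1 := ih (by omega)
    have g2 := H_step hK R (c := j) (by omega)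
    have g3 : 4 * (((j + 1 : ℕ) : ℝ) - i) / K = 4 * ((j : ℝ) - i) / K + 4 / K := by push_cast; ring
    rw [g3]
    linarith

/-- **E6 = (A)** from **E4 = (K)** and **E5** -/
theorem e6_of (h4 : E4) {C₀ : ℝ} (h5 : E5 C₀) : E6 (C₀ + 7) := by
  intro K F J θ H e W kk jj hK R c i j hij hj2 hjK hj2c hcK hα
  have hKp : (0 : ℝ) < K := by exact_mod_cast hK
  obtain ⟨l1, -, l3⟩ := h5 F J θ H e W kk jj hK R
  have hC : 0 ≤ C₀ := by
    have := l1 0 0 (Nat.zero_le _) (Nat.zero_le _)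
    simp only [sub_self, abs_zero, mul_zero, zero_div, zero_add] at this
    by_contra hcon
    push Not at hcon
    have := div_neg_of_neg_of_pos hcon hKp
    linarith
  have hiK := hij.trans hjK
  have e7 : (C₀ + 7) / (K : ℝ) = C₀ / K + 1 / K + 6 / K := by ring
  have p6 : 0 ≤ 6 / (K : ℝ) := by positivity
  have p1 : 0 ≤ 1 / (K : ℝ) := by positivity
  have pC : 0 ≤ C₀ / (K : ℝ) := by positivity
  have hE := D_le_E hK R hij hjK
  rcases le_or_gt c j with hcj | hcj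
  · rcases Nat.eq_zero_or_pos c with h0 | h0
    · subst h0
      have hj0 : j = 0 := by omega
      subst hj0
      have hi0 : i = 0 := by omega
      subst hi0
      have : 0 ≤ (C₀ + 7) / (K : ℝ) := by positivity
      simp only [sub_self, mul_zero, add_zero, abs_zero, zero_div]
      linarith
    · have d := diag h4 hK R h0 hcj hj2c hjK hα
      have hl := l1 c i hcK hiK
      rcases le_total c i with hci | hci
      · have hci' : (c : ℝ) ≤ i := by exact_mod_cast hci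
        rw [abs_sub_comm, abs_of_nonneg (sub_nonneg.2 hci')]
        rw [abs_sub_comm (c : ℝ), abs_of_nonneg (sub_nonneg.2 hci')] at hl
        have h1 := D_sub hK R hci hij hjK
        have h2 := D_le hK R hci hiK
        have h3 := H_ge hK R hci hiK
        have h6 := (abs_le.1 hl).1
        have h7 : nV K H e c ≤ nV K H e i + C₀ * ((i : ℝ) - c) / K + C₀ / K := by
          unfold nV
          have e1 : 4 * ((i : ℝ) - c) / K = 4 * (i : ℝ) / K - 4 * (c : ℝ) / K := by ring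
          rw [e1] at h3
          linarith
        have e2 : (C₀ + 7) * ((i : ℝ) - c) / K = C₀ * ((i : ℝ) - c) / K +
            3 * (2 * ((i : ℝ) - c) / K) + ((i : ℝ) - c) / K := by ring
        have p2 : 0 ≤ ((i : ℝ) - c) / K := div_nonneg (by linarith) hKp.le
        rw [e2, e7]
        linarith
      · have hci' : (i : ℝ) ≤ c := by exact_mod_cast hci
        rw [abs_of_nonneg (sub_nonneg.2 hci')]
        rw [abs_of_nonneg (sub_nonneg.2 hci')] at hl
        have h1 := D_mid hK R hci hcj hjK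
        have h3 := H369.H_le hK R hci hcK
        have h6 := (abs_le.1 hl).1
        have h7 : nV K H e c ≤ nV K H e i + C₀ * ((c : ℝ) - i) / K + C₀ / K + 6 * ((c : ℝ) - i) / K := by
          unfold nV
          have e1 : 6 * ((c : ℝ) - i) / K = 2 * ((c : ℝ) - i) / K + (4 * (c : ℝ) / K - 4 * (i : ℝ) / K) := by
            ring
          rw [e1]
          linarith
        have e2 : (C₀ + 7) * ((c : ℝ) - i) / K = C₀ * ((c : ℝ) - i) / K +
            6 * ((c : ℝ) - i) / K + ((c : ℝ) - i) / K := by ring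
        have p2 : 0 ≤ ((c : ℝ) - i) / K := div_nonneg (by linarith) hKp.le
        rw [e2, e7]
        linarith
  · have hcj' : (j : ℝ) ≤ c := by exact_mod_cast hcj.le
    have hij' : (i : ℝ) ≤ j := by exact_mod_cast hij
    have h1 := l3 i j hij hj2 hjK
    rw [abs_of_nonneg (by linarith : (0 : ℝ) ≤ (c : ℝ) - i)]
    have h2 : C₀ * ((j : ℝ) - i) / K ≤ (C₀ + 7) * ((c : ℝ) - i) / K := by
      apply div_le_div_of_nonneg_right _ hKp.le
      exact mul_le_mul (by linarith) (by linarith) (by linarith) (by linarith)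
    rw [e7]
    linarith

end Vale.Agent.P122.H778
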